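import Vale.Agent.P188.H269.Inst
import Vale.Agent.P188.H796.Ll
import Vale.Agent.P188.H754.Malcev11

/-!
P188, Z1, RM-b: generator weights of `N` are eigenfunctionals of the adjoint representation of `S`
which kill all brackets.
-/

set_option linter.all false

universe u v

open Finset Filter Topology
open scoped commutatorElement

namespace Vale.Agent.P188.H953

open Vale.Agent.P188.H796 Vale.Agent.P188.H269 Vale.Agent.P188.H615
open Vale.Agent.P188.H754 (GenWeight)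

section

variable {Γ : Type u} [Group Γ] {N : Subgroup Γ} [hN : N.Normal] {d n : ℕ} (D : MB N d n)

/-- the linear extension of the homomorphism of a generator weight -/
noncomputable def Lam (w : GenWeight N) : D.Alg →ₗ[ℝ] ℂ :=
  ∑ i, (D.R.ℓ i).smulRight (w.φ (D.b i))

theorem Lam_apply (w : GenWeight N) (a : D.Alg) :
    Lam D w a = ∑ i, D.R.ℓ i a • w.φ (D.b i) := by
  simp [Lam, LinearMap.sum_apply]

/-- the homomorphism of a generator weight, on `N` -/
def phN (w : GenWeight N) : N →* Multiplicative ℂ where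
  toFun x := Multiplicative.ofAdd (w.φ x)
  map_one' := by rw [Subgroup.coe_one, w.φ_one]; rfl
  map_mul' x y := by rw [Subgroup.coe_mul, w.φ_mul x x.2 y y.2]; rfl

theorem Lam_ι (w : GenWeight N) (y : N) : Lam D w (D.R.toA (D.R.ι y)) = w.φ y := by
  rw [Lam_apply]
  have h1 : ∀ i, D.R.ℓ i (D.R.toA (D.R.ι y)) = (D.c i y : ℝ) := fun i => D.R.ℓ_toA _ i
  have h2 : phN w y = ∏ i, phN w (D.b i) ^ D.c i y := by
    conv_lhs => rw [← D.prod_c y]
    rw [map_list_prod, List.map_ofFn, List.prod_ofFn]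
    refine Finset.prod_congr rfl fun i _ => ?_
    simp only [Function.comp_apply, map_zpow]
  have h3 : w.φ y = ∑ i, D.c i y • w.φ (D.b i) := by
    have := congrArg Multiplicative.toAdd h2
    rw [toAdd_prod] at this
    exact this
  rw [h3]
  refine Finset.sum_congr rfl fun i _ => ?_
  rw [h1, Complex.real_smul, zsmul_eq_mul]
  push_cast
  rfl

theorem Lam_mul (w : GenWeight N) (s s' : D.R.NR) :
    Lam D w (D.R.toA (s * s')) = Lam D w (D.R.toA s) + Lam D w (D.R.toA s') := by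
  have key : ∀ (y' : N) (s : D.R.NR), Lam D w (D.R.toA s * D.R.toA (D.R.ι y')) =
      Lam D w (D.R.toA s) + Lam D w (D.R.toA (D.R.ι y')) := by
    intro y'
    refine D.R.dens ?_ ?_ ?_
    · intro γ hγ
      exact ((D.R.PC_E hγ).mul (PC.const _)).map (Lam D w)
    · intro γ hγ
      exact ((D.R.PC_E hγ).map (Lam D w)).add (PC.const _)
    · intro y
      rw [← map_mul, ← map_mul, Lam_ι, Lam_ι, Lam_ι]
      exact w.φ_mul y y.2 y' y'.2
  rw [map_mul]
  revert s'
  refine D.R.dens ?_ ?_ ?_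
  · intro γ hγ
    exact ((PC.const _).mul (D.R.PC_E hγ)).map (Lam D w)
  · intro γ hγ
    exact (PC.const _).add ((D.R.PC_E hγ).map (Lam D w))
  · intro y'
    exact key y' s

/-- the functional on the Lie algebra -/
noncomputable def lam (w : GenWeight N) : D.R.V →ₗ[ℝ] ℂ := (Lam D w).comp D.R.V.subtype

theorem lam_apply (w : GenWeight N) (v : D.R.V) : lam D w v = Lam D w (v : D.Alg) := rfl

theorem Lam_one (w : GenWeight N) : Lam D w (D.R.toA 1) = 0 := by
  have h := Lam_mul D w 1 1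
  rw [mul_one] at h
  linear_combination -h

theorem Lam_inv (w : GenWeight N) (s : D.R.NR) :
    Lam D w (D.R.toA s⁻¹) = - Lam D w (D.R.toA s) := by
  have h := Lam_mul D w s s⁻¹
  rw [mul_inv_cancel, Lam_one] at h
  linear_combination -h

theorem Lam_Ex (w : GenWeight N) (v : D.R.V) : Lam D w (D.R.toA (D.R.Ex v)) = lam D w v := by
  -- the additive function `t ↦ Λ (Ex (t v))`
  let f : ℝ →+ ℂ :=
    { toFun := fun t => Lam D w (D.R.toA (D.R.Ex (t • v)))
      map_zero' := by rw [zero_smul, D.R.Ex_zero, Lam_one]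
      map_add' := fun s t => by rw [D.R.Ex_add, Lam_mul] }
  have hf : ∀ t, f t = Lam D w (ex D.R.m (t • (v : D.Alg))) := by
    intro t
    change Lam D w (D.R.toA (D.R.Ex (t • v))) = _
    rw [D.R.toA_Ex]; rfl
  have hvm : ((v : D.Alg)) ^ D.R.m = 0 := D.R.J_nil v.2.1
  have hL : Continuous (Lam D w) := (Lam D w).continuous_of_finiteDimensional
  have hcont : Continuous f := by
    have : (f : ℝ → ℂ) = fun t => Lam D w (ex D.R.m (t • (v : D.Alg))) := funext hf
    rw [this]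
    exact hL.comp (continuous_ex.comp (continuous_id.smul continuous_const))
  have hlin : ∀ t : ℝ, f t = t • f 1 := by
    intro t
    have := map_real_smul f hcont t (1 : ℝ)
    rwa [smul_eq_mul, mul_one] at this
  have hd1 : HasDerivAt (fun t : ℝ => Lam D w (ex D.R.m (t • (v : D.Alg)))) (Lam D w (v : D.Alg)) 0 := by
    have h1 := hasDerivAt_ex (m := D.R.m) hvm 0
    rw [ex_zero_smul D.R.hm0, one_mul] at h1
    exact (LinearMap.toContinuousLinearMap (Lam D w)).hasFDerivAt.comp_hasDerivAt (0 : ℝ) h1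
  have hd2 : HasDerivAt (fun t : ℝ => Lam D w (ex D.R.m (t • (v : D.Alg)))) (f 1) 0 := by
    have h1 : (fun t : ℝ => Lam D w (ex D.R.m (t • (v : D.Alg)))) = fun t => t • f 1 := by
      funext t
      rw [← hf, hlin]
    rw [h1]
    have := (hasDerivAt_id (0 : ℝ)).smul_const (f 1)
    simpa using this
  have h3 := hd1.unique hd2
  rw [lam_apply, h3]
  change _ = Lam D w (D.R.toA (D.R.Ex ((1 : ℝ) • v)))
  rw [one_smul]

theorem lam_Lo (w : GenWeight N) (s : D.R.NR) : lam D w (D.R.Lo s) = Lam D w (D.R.toA s) := by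
  rw [← Lam_Ex, D.R.Ex_Lo]

theorem lam_Adn (w : GenWeight N) (s : D.R.NR) (v : D.R.V) :
    lam D w (D.R.Adn s v) = lam D w v := by
  rw [← Lam_Ex, D.R.Ex_Adn, Lam_mul, Lam_mul, Lam_inv, Lam_Ex]
  ring

/-- the functional kills the brackets -/
theorem lam_lie (w : GenWeight N) (x y : D.R.V) : lam D w ⁅x, y⁆ = 0 := by
  have h1 : ∀ t : ℝ, ∑ k ∈ range (2 * D.R.m), t ^ k •
      (((k.factorial : ℝ)⁻¹) • lam D w (((LieAlgebra.ad ℝ D.R.V x) ^ k) y)) = lam D w y := by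
    intro t
    have h2 := lam_Adn D w (D.R.Ex (t • x)) y
    rw [D.R.Adn_Ex, map_sum] at h2
    rw [← h2]
    refine Finset.sum_congr rfl fun k _ => ?_
    rw [map_smul, map_smul, smul_pow, LinearMap.smul_apply, map_smul, smul_comm]
  have hd1 : HasDerivAt (fun t : ℝ => ∑ k ∈ range (2 * D.R.m), t ^ k •
      (((k.factorial : ℝ)⁻¹) • lam D w (((LieAlgebra.ad ℝ D.R.V x) ^ k) y))) 0 0 := by
    have : (fun t : ℝ => ∑ k ∈ range (2 * D.R.m), t ^ k •
      (((k.factorial : ℝ)⁻¹) • lam D w (((LieAlgebra.ad ℝ D.R.V x) ^ k) y))) =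
        fun _ => lam D w y := funext h1
    rw [this]
    exact hasDerivAt_const _ _
  have hd2 : HasDerivAt (fun t : ℝ => ∑ k ∈ range (2 * D.R.m), t ^ k •
      (((k.factorial : ℝ)⁻¹) • lam D w (((LieAlgebra.ad ℝ D.R.V x) ^ k) y)))
      (∑ k ∈ range (2 * D.R.m), ((k : ℝ) * 0 ^ (k - 1)) •
      (((k.factorial : ℝ)⁻¹) • lam D w (((LieAlgebra.ad ℝ D.R.V x) ^ k) y))) 0 := by
    refine HasDerivAt.fun_sum fun k _ => ?_
    exact (hasDerivAt_pow k (0 : ℝ)).smul_const _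
  have h3 := hd1.unique hd2
  have hm : 1 ∈ range (2 * D.R.m) := by
    have := D.R.one_lt
    rw [Finset.mem_range]; omega
  rw [Finset.sum_eq_single_of_mem 1 hm] at h3
  · simpa using h3.symm
  · intro k _ hk
    rcases Nat.eq_zero_or_pos k with rfl | hk0
    · simp
    · have : k - 1 ≠ 0 := by omega
      rw [zero_pow this, mul_zero, zero_smul]

/-- equivariance -/
theorem Lam_αΓ (w : GenWeight N) (g : Γ) (s : D.R.NR) :
    Lam D w (D.R.toA (D.αΓ g s)) = w.ρ g * Lam D w (D.R.toA s) := by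
  have h0 : ∀ s : D.R.NR, D.R.toA (D.αΓ g s) = D.Th (MulAut.conjNormal g) (D.R.toA s) :=
    fun s => D.toA_actM _ s
  have key : ∀ s : D.R.NR, Lam D w (D.Th (MulAut.conjNormal g) (D.R.toA s)) =
      w.ρ g * Lam D w (D.R.toA s) := by
    refine D.R.dens ?_ ?_ ?_
    · intro γ hγ
      exact ((D.R.PC_E hγ).map (D.Th (MulAut.conjNormal g)).toLinearMap).map (Lam D w)
    · intro γ hγ
      exact ((D.R.PC_E hγ).map (Lam D w)).map (LinearMap.mulLeft ℝ (w.ρ g))
    · intro y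
      rw [← h0, D.αΓ_ι, Lam_ι, Lam_ι]
      exact w.φ_conj g y y.2
  rw [h0, key]

theorem lam_AdΓ (w : GenWeight N) (g : Γ) (v : D.R.V) :
    lam D w (D.AdΓ g v) = w.ρ g * lam D w v := by
  rw [← Lam_Ex, D.Ex_AdΓ, Lam_αΓ, Lam_Ex]

/-- the character of `S` -/
noncomputable def chS (w : GenWeight N) : D.S →* ℂˣ :=
  D.P.lift w.ρ.toHomUnits (fun x => Units.ext (w.ρ_of_mem x.2))

theorem chS_inΓ (w : GenWeight N) (g : Γ) : ((chS D w (D.inΓ g) : ℂˣ) : ℂ) = w.ρ g := by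
  unfold chS
  rw [D.P.lift_inG]; rfl

theorem chS_inN (w : GenWeight N) (k : D.R.NR) : chS D w (D.inN k) = 1 := by
  unfold chS
  rw [D.P.lift_inK]

theorem lam_AdE (w : GenWeight N) (s : D.S) (v : D.R.V) :
    lam D w (D.AdE s v) = (chS D w s : ℂ) * lam D w v := by
  obtain ⟨k, g, rfl⟩ := D.P.exists_eq s
  rw [D.AdE_apply, D.Ad_mul_apply, lam_Adn, lam_AdΓ, map_mul]
  have h1 : chS D w (D.P.inK k) = 1 := chS_inN D w k
  have h2 : ((chS D w (D.P.inG g) : ℂˣ) : ℂ) = w.ρ g := chS_inΓ D w g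
  rw [h1, one_mul, h2]

/-- **a generator weight is an eigenfunctional which kills the brackets** -/
theorem eigOn_lam (w : GenWeight N) :
    EigOn D.AdE ⊤ (lam D w) (fun s => (chS D w s : ℂ)) where
  inv _ _ _ := Submodule.mem_top
  ne := by
    obtain ⟨x, hx, hx0⟩ := w.φ_ne
    refine ⟨D.R.Lo (D.R.ι ⟨x, hx⟩), Submodule.mem_top, ?_⟩
    rw [lam_Lo, Lam_ι]
    exact hx0
  eig s x _ := lam_AdE D w s x

end

/-! ### the converse -/

section conv

variable {Γ : Type u} [Group Γ] {N : Subgroup Γ} [hN : N.Normal] {d n : ℕ} (D : MB N d n)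

/-- `l ∘ Lo` is additive if `l` kills the brackets -/
theorem l_Lo_mul {F : Type*} [AddCommGroup F] [Module ℝ F] (habel : ∀ a b : Γ, ⁅a, b⁆ ∈ N)
    (l : D.R.V →ₗ[ℝ] F) (hl : ∀ x y : D.R.V, l ⁅x, y⁆ = 0) (s s' : D.R.NR) :
    l (D.R.Lo (s * s')) = l (D.R.Lo s) + l (D.R.Lo s') := by
  obtain ⟨z, hz, h1⟩ := (expS D habel).mul_ideal ⊤ (D.R.Lo s) (D.R.Lo s') (LieSubmodule.mem_top _)
  have hz0 : l z = 0 := by
    have h2 : (⁅(⊤ : LieIdeal ℝ D.R.V), (⊤ : LieIdeal ℝ D.R.V)⁆ :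
        LieIdeal ℝ D.R.V).toSubmodule ≤ LinearMap.ker l := by
      rw [LieSubmodule.lieIdeal_oper_eq_linear_span', Submodule.span_le]
      rintro _ ⟨x, _, y, _, rfl⟩
      exact hl x y
    exact h2 hz
  have h3 : D.R.Ex (D.R.Lo s) * D.R.Ex (D.R.Lo s') = D.R.Ex (D.R.Lo s + D.R.Lo s' + z) := by
    apply D.P.inK_injective
    rw [map_mul]
    exact h1
  rw [D.R.Ex_Lo, D.R.Ex_Lo] at h3
  rw [h3, D.R.Lo_Ex, map_add, map_add, hz0, add_zero]

/-- a functional killing brackets and the logarithms of the lattice is zero -/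
theorem l_eq_zero {F : Type*} [AddCommGroup F] [Module ℝ F]
    (l : D.R.V →ₗ[ℝ] F) (h : ∀ y : N, l (D.R.Lo (D.R.ι y)) = 0) (v : D.R.V) : l v = 0 := by
  have key : ∀ s : D.R.NR, l (D.R.Lo s) = 0 := by
    obtain ⟨L, hL⟩ := LinearMap.exists_extend l
    have hLo : ∀ s : D.R.NR, l (D.R.Lo s) = L (lg D.R.m (D.R.E s)) := by
      intro s
      rw [← hL]; rfl
    intro s
    rw [hLo]
    revert s
    refine D.R.dens (f := fun s => L (lg D.R.m (D.R.E s))) (g := fun _ => 0) ?_ ?_ ?_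
    · intro γ hγ
      refine PC.map ?_ L
      unfold lg
      exact PC.sum _ fun k _ => (PC.const (be k)).smul (((D.R.PC_E hγ).sub (PC.const 1)).pow k)
    · intro γ _
      exact PC.zero
    · intro y
      rw [← hLo, h]
  have := key (D.R.Ex v)
  rwa [D.R.Lo_Ex] at this

open Classical in
/-- **an eigenfunctional killing the brackets is a generator weight** -/
theorem exists_genWeight (habel : ∀ a b : Γ, ⁅a, b⁆ ∈ N) {l : D.R.V →ₗ[ℝ] ℂ} {χ : D.S → ℂ}
    (h : EigOn D.AdE ⊤ l χ) (hl : ∀ x y : D.R.V, l ⁅x, y⁆ = 0) :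
    ∃ w : GenWeight N, (∀ g, w.ρ g = χ (D.inΓ g)) ∧
      ∀ y : N, w.φ y = l (D.R.Lo (D.R.ι y)) := by
  let φ : Γ → ℂ := fun g => if hg : g ∈ N then l (D.R.Lo (D.R.ι ⟨g, hg⟩)) else 0
  have hφ : ∀ y : N, φ y = l (D.R.Lo (D.R.ι y)) := fun y => dif_pos y.2
  refine ⟨{
    ρ := 
      { toFun := fun g => χ (D.inΓ g)
        map_one' := by rw [map_one, h.one]
        map_mul' := fun a b => by rw [map_mul, h.mul] }
    φ := φ
    φ_mul := ?_
    φ_conj := ?_
    φ_ne := ?_ }, fun g => rfl, hφ⟩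
  · intro x hx y hy
    have h1 := hφ (⟨x, hx⟩ * ⟨y, hy⟩)
    rw [map_mul, l_Lo_mul D habel l hl, ← hφ, ← hφ] at h1
    exact h1
  · intro g x hx
    have h1 := hφ ⟨g * x * g⁻¹, hN.conj_mem x hx g⟩
    have h2 : D.αΓ g (D.R.ι ⟨x, hx⟩) = D.R.ι ⟨g * x * g⁻¹, hN.conj_mem x hx g⟩ := D.αΓ_ι g ⟨x, hx⟩
    have h3 : D.R.Lo (D.αΓ g (D.R.ι ⟨x, hx⟩)) = D.AdE (D.inΓ g) (D.R.Lo (D.R.ι ⟨x, hx⟩)) := by
      apply D.R.Ex_injective
      rw [D.R.Ex_Lo, D.AdE_apply, D.Ad_inΓ, D.Ex_AdΓ, D.R.Ex_Lo]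
    rw [← h2, h3, h.eig _ _ Submodule.mem_top, ← hφ] at h1
    exact h1
  · by_contra hcon
    push Not at hcon
    obtain ⟨v, _, hv⟩ := h.ne
    refine hv (l_eq_zero D l (fun y => ?_) v)
    rw [← hφ]
    exact hcon y y.2

end conv

end Vale.Agent.P188.H953
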