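import Vale.Agent.P188.H953.WtB
import Vale.Agent.P188.H796.InstB

/-!
P188, Z1, RM-b: the weight spaces `Vw b` of the concrete group `D.S`.
-/

set_option linter.all false

open Finset Filter Topology
open scoped commutatorElement Pointwise

namespace Vale.Agent.P188.H953

open Vale.Agent.P188.H796 Vale.Agent.P188.H615 Vale.Agent.P188.H269 Vale.Agent.P188.Z1
open Vale.Agent.P188.H530 (hgt)
open Agent.P188.H428 (C_le_one)

/-- linear forms on the heights are determined by their values on a group -/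
theorem form_inj' {S : Type} [Group S] {k : ℕ} {θ : S →* Multiplicative (Fin k → ℤ)}
    (hθ : Function.Surjective θ) {b b' : Z1.Ht k →L[ℝ] ℝ} (h : ∀ s, b (hgt θ s) = b' (hgt θ s)) :
    b = b' := by
  refine ContinuousLinearMap.ext fun x => ?_
  have h2 : ∀ i : Fin k, b (Pi.single i 1) = b' (Pi.single i 1) := by
    intro i
    obtain ⟨g, hg⟩ := hθ (Multiplicative.ofAdd (Pi.single i 1))
    have h3 := h g
    have e : hgt θ g = Pi.single i 1 := by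
      funext j
      simp only [hgt, hg]
      by_cases hij : j = i
      · subst hij; simp
      · simp [Pi.single_apply, hij]
    rwa [e] at h3
  have e : x = ∑ i, x i • (Pi.single i 1 : Fin k → ℝ) := by
    funext j
    simp [Finset.sum_apply, Pi.single_apply]
  rw [e, map_sum, map_sum]
  simp [h2]

section conc

variable {Γ : Type} [Group Γ] {k : ℕ} {η : Γ →* Multiplicative (Fin k → ℤ)} {d n : ℕ}
  (D : MB η.ker d n)

/-- the function on `S` of a form -/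
noncomputable def fm (b : Z1.Ht k →L[ℝ] ℝ) : D.S → ℝ := fun s => b (hgt (D.θ η) s)

theorem fm_apply (b : Z1.Ht k →L[ℝ] ℝ) (s : D.S) : fm D b s = b (hgt (D.θ η) s) := rfl

theorem fm_inj (hη : Function.Surjective η) {b b' : Z1.Ht k →L[ℝ] ℝ} (h : fm D b = fm D b') :
    b = b' := form_inj' (D.θ_surjective hη) (fun s => congrFun h s)

theorem fm_zero : fm D (0 : Z1.Ht k →L[ℝ] ℝ) = 0 := rfl

theorem fm_add (b b' : Z1.Ht k →L[ℝ] ℝ) : fm D (b + b') = fm D b + fm D b' := rfl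

theorem fm_ne (hη : Function.Surjective η) {b : Z1.Ht k →L[ℝ] ℝ} (h : b ≠ 0) : fm D b ≠ 0 :=
  fun h0 => h (fm_inj D hη (h0.trans (fm_zero D).symm))

/-- the two properties of the finite sets of forms -/
structure Forms (WF Ph : Finset (Z1.Ht k →L[ℝ] ℝ)) : Prop where
  memW : ∀ b, b ∈ WF ↔ b = 0 ∨ fm D b ∈ Wts D.AdE ⊤
  memP : ∀ b, b ∈ Ph ↔ b ≠ 0 ∧ fm D b ∈ GW D.AdE
  form : ∀ b' ∈ Wts D.AdE ⊤, ∃ b : Z1.Ht k →L[ℝ] ℝ, b' = fm D b

open Classical in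
/-- the weight spaces -/
noncomputable def Vw (t : D.S) (WF : Finset (Z1.Ht k →L[ℝ] ℝ)) (b : Z1.Ht k →L[ℝ] ℝ) :
    Submodule ℝ D.R.V := if b ∈ WF then W D.AdE t (fm D b t) else ⊥

variable {D} {WF Ph : Finset (Z1.Ht k →L[ℝ] ℝ)} (hF : Forms D WF Ph) {t : D.S}

theorem Vw_of_mem {b : Z1.Ht k →L[ℝ] ℝ} (hb : b ∈ WF) : Vw D t WF b = W D.AdE t (fm D b t) :=
  if_pos hb

theorem Vw_of_not {b : Z1.Ht k →L[ℝ] ℝ} (hb : b ∉ WF) : Vw D t WF b = ⊥ := if_neg hb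

include hF

theorem Forms.zero_mem : (0 : Z1.Ht k →L[ℝ] ℝ) ∈ WF := (hF.memW 0).2 (Or.inl rfl)

theorem Forms.Vw_zero : Vw D t WF 0 = W D.AdE t 0 := by
  rw [Vw_of_mem hF.zero_mem, fm_zero, Pi.zero_apply]

theorem Forms.wts {b : Z1.Ht k →L[ℝ] ℝ} (hb : b ∈ WF) (h0 : b ≠ 0) : fm D b ∈ Wts D.AdE ⊤ :=
  ((hF.memW b).1 hb).resolve_left h0

theorem Forms.sub : Ph ⊆ WF := fun b hb =>
  (hF.memW b).2 (Or.inr (GW_sub ((hF.memP b).1 hb).2))

theorem Forms.fm_t_ne (hη : Function.Surjective η) (hs : Sep D.AdE t) {b : Z1.Ht k →L[ℝ] ℝ}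
    (hb : b ∈ WF) (h0 : b ≠ 0) : fm D b t ≠ 0 := fun h =>
  fm_ne D hη h0 (hs.1 _ (hF.wts hb h0) h)

theorem Forms.Vw_e (hη : Function.Surjective η) (hs : Sep D.AdE t) {b : Z1.Ht k →L[ℝ] ℝ}
    (h0 : b ≠ 0) : Vw D t WF b ≤ (eId D.AdE t).toSubmodule := by
  by_cases hb : b ∈ WF
  · rw [Vw_of_mem hb]
    exact fun x hx => Wt_le_eI (hF.fm_t_ne hη hs hb h0) hx
  · rw [Vw_of_not hb]; exact bot_le

theorem Forms.C_inv (habel : ∀ a b : Γ, ⁅a, b⁆ ∈ η.ker) {c : D.S} (hc : c ∈ (expS D habel).C t)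
    (b : Z1.Ht k →L[ℝ] ℝ) : ∀ v ∈ Vw D t WF b, D.AdE c v ∈ Vw D t WF b := by
  intro v hv
  by_cases hb : b ∈ WF
  · rw [Vw_of_mem hb] at hv ⊢
    exact (expS D habel).C_inv hc _ v hv
  · rw [Vw_of_not hb, Submodule.mem_bot] at hv
    rw [hv, map_zero]; exact Submodule.zero_mem _

/-- field `C_le` -/
theorem Forms.C_le (habel : ∀ a b : Γ, ⁅a, b⁆ ∈ η.ker) (hs : Sep D.AdE t)
    {τ : (Fin k → ℤ) → D.S} (hτ : ∀ w, τ w ∈ (expS D habel).C t) :
    ∃ (C : ℝ) (e : ℕ), 0 ≤ C ∧ ∀ m : ℕ, ∀ c ∈ CBall D.nm (Vw D t WF 0 : Set D.R.V) D.ex τ m,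
      ∀ b ∈ WF, ∀ v ∈ Vw D t WF b,
      D.nm (D.AdE c v) ≤ C * (1 + m) ^ e * Real.exp (b (hgt (D.θ η) c)) * D.nm v := by
  classical
  rw [hF.Vw_zero]
  obtain ⟨C0, e0, hC0, h0⟩ := H796.C_le_zero D habel hs hτ
  obtain ⟨C1, e1, hC1, h1⟩ := Agent.P188.H428.C_le D habel hs hτ (WF.erase 0) (by
    intro b hb
    rw [Finset.mem_erase] at hb
    exact ⟨fm D b, hF.wts hb.2 hb.1, fun c => rfl⟩)
  refine ⟨C0 + C1, e0 + e1, by positivity, fun m c hc b hb v hv => ?_⟩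
  have hm : (1 : ℝ) ≤ 1 + m := by linarith [(Nat.cast_nonneg m : (0 : ℝ) ≤ m)]
  have h4 : 0 ≤ D.nm v := apply_nonneg D.nm _
  rw [Vw_of_mem hb] at hv
  by_cases hb0 : b = 0
  · subst hb0
    rw [fm_zero, Pi.zero_apply] at hv
    have h2 := h0 m c hc v hv
    refine h2.trans ?_
    rw [ContinuousLinearMap.zero_apply, Real.exp_zero, mul_one]
    have h3 : (1 + (m : ℝ)) ^ e0 ≤ (1 + m) ^ (e0 + e1) := pow_le_pow_right₀ hm (by omega)
    have h5 : C0 ≤ C0 + C1 := by linarith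
    gcongr
  · have h2 := h1 m c hc b (Finset.mem_erase.2 ⟨hb0, hb⟩) v hv
    refine h2.trans ?_
    have h3 : (1 + (m : ℝ)) ^ e1 ≤ (1 + m) ^ (e0 + e1) := pow_le_pow_right₀ hm (by omega)
    have h5 : C1 ≤ C0 + C1 := by linarith
    gcongr

/-- brackets of weight spaces -/
theorem Forms.lie_Vw (habel : ∀ a b : Γ, ⁅a, b⁆ ∈ η.ker) (hs : Sep D.AdE t)
    {b b' : Z1.Ht k →L[ℝ] ℝ} {x y : D.R.V} (hx : x ∈ Vw D t WF b) (hy : y ∈ Vw D t WF b') :
    ⁅x, y⁆ ∈ Vw D t WF (b + b') := by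
  by_cases h0 : ⁅x, y⁆ = 0
  · rw [h0]; exact Submodule.zero_mem _
  have hb : b ∈ WF := by
    by_contra hb
    rw [Vw_of_not hb, Submodule.mem_bot] at hx
    exact h0 (by rw [hx, zero_lie])
  have hb' : b' ∈ WF := by
    by_contra hb
    rw [Vw_of_not hb, Submodule.mem_bot] at hy
    exact h0 (by rw [hy, lie_zero])
  rw [Vw_of_mem hb] at hx
  rw [Vw_of_mem hb'] at hy
  have h1 := (expS D habel).lie_W t hx hy
  -- the weights as weights of the representation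
  have key : ∀ {c : Z1.Ht k →L[ℝ] ℝ} {z : D.R.V}, c ∈ WF → z ∈ W D.AdE t (fm D c t) → z ≠ 0 →
      fm D c ∈ Wts D.AdE ⊤ := by
    intro c z hc hz hz0
    by_cases hc0 : c = 0
    · subst hc0
      rw [fm_zero, Pi.zero_apply] at hz
      obtain ⟨b'', hb'', ht''⟩ := (expS D habel).exists_weight t (r := 0) (fun h => by
        rw [h, Submodule.mem_bot] at hz
        exact hz0 hz)
      have : b'' = 0 := hs.1 _ hb'' ht''
      rw [fm_zero, ← this]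
      exact hb''
    · exact hF.wts hc hc0
  have hx0 : x ≠ 0 := fun h => h0 (by rw [h, zero_lie])
  have hy0 : y ≠ 0 := fun h => h0 (by rw [h, lie_zero])
  have h2 := lie_wt (expS D habel) hs (key hb hx hx0) (key hb' hy hy0) hx hy h0
  rw [← fm_add] at h2
  have h3 : b + b' ∈ WF := (hF.memW _).2 (Or.inr h2)
  rw [Vw_of_mem h3, fm_add, Pi.add_apply]
  exact h1

/-- the weight spaces span -/
theorem Forms.iSup_Vw (habel : ∀ a b : Γ, ⁅a, b⁆ ∈ η.ker) (hs : Sep D.AdE t) :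
    ⨆ b ∈ WF, Vw D t WF b = ⊤ := by
  rw [eq_top_iff, ← iSup_W D.AdE t]
  refine iSup_le fun r => ?_
  by_cases hr : W D.AdE t r = ⊥
  · rw [hr]; exact bot_le
  · obtain ⟨b', hb', ht'⟩ := (expS D habel).exists_weight t hr
    obtain ⟨b, rfl⟩ := hF.form b' hb'
    have hb : b ∈ WF := (hF.memW b).2 (Or.inr hb')
    refine le_trans (le_of_eq ?_) (le_iSup₂ b hb)
    rw [Vw_of_mem hb, ht']

/-- `V = e + Vw 0` -/
theorem Forms.exists_add (v : D.R.V) : ∃ x ∈ eId D.AdE t, ∃ y ∈ Vw D t WF 0, v = x + y := by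
  obtain ⟨x0, hx0, hx⟩ := exists_neutral_add D.AdE t v
  exact ⟨v - x0, hx, x0, by rw [hF.Vw_zero]; exact hx0, by abel⟩

/-- generation of the ideal -/
theorem Forms.gen_e (habel : ∀ a b : Γ, ⁅a, b⁆ ∈ η.ker) (hη : Function.Surjective η)
    (hs : Sep D.AdE t) {v : D.R.V} (hv : v ∈ eId D.AdE t) :
    v ∈ LieSubalgebra.lieSpan ℝ D.R.V {x | ∃ b, (b ≠ 0 ∧ b ∈ Ph) ∧ x ∈ Vw D t WF b} := by
  haveI := (expS D habel).normal
  have h1 := (mem_PG_iff (expS D habel).lrep hs v).2 hv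
  refine (LieSubalgebra.lieSpan_le.2 ?_) h1
  intro x hx
  simp only [Set.mem_iUnion] at hx
  obtain ⟨b', hb', hx⟩ := hx
  obtain ⟨b, rfl⟩ := hF.form b' (GW_sub hb')
  have hb0 : b ≠ 0 := by
    rintro rfl
    exact hb'.1 (fm_zero D)
  have hbP : b ∈ Ph := (hF.memP b).2 ⟨hb0, hb'⟩
  refine LieSubalgebra.subset_lieSpan ⟨b, ⟨hb0, hbP⟩, ?_⟩
  rw [Vw_of_mem (hF.sub hbP)]
  exact hx

/-- `Vw 0` is a subalgebra -/
theorem Forms.gen_0 (habel : ∀ a b : Γ, ⁅a, b⁆ ∈ η.ker) {v : D.R.V}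
    (hv : v ∈ Vw D t WF 0) :
    v ∈ LieSubalgebra.lieSpan ℝ D.R.V {x | ∃ b : Z1.Ht k →L[ℝ] ℝ, b = 0 ∧ x ∈ Vw D t WF b} :=
  LieSubalgebra.subset_lieSpan ⟨0, rfl, hv⟩

open Classical in
/-- **unimodularity** -/
theorem Forms.exists_mult (habel : ∀ a b : Γ, ⁅a, b⁆ ∈ η.ker) (hη : Function.Surjective η)
    (hs : Sep D.AdE t) (hdet : ∀ s : D.S, |LinearMap.det (D.AdE s)| = 1) :
    ∃ m : (Z1.Ht k →L[ℝ] ℝ) → ℝ, (∀ b ∈ Ph, 0 < m b) ∧ ∑ b ∈ Ph, m b • b = 0 := by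
  have hG : ((Ph.image (fm D) : Finset (D.S → ℝ)) : Set (D.S → ℝ)) = GW D.AdE := by
    ext b'
    rw [Finset.coe_image]
    constructor
    · rintro ⟨b, hb, rfl⟩
      exact ((hF.memP b).1 hb).2
    · intro hb'
      obtain ⟨b, rfl⟩ := hF.form b' (GW_sub hb')
      refine ⟨b, (hF.memP b).2 ⟨?_, hb'⟩, rfl⟩
      rintro rfl
      exact hb'.1 (fm_zero D)
  obtain ⟨m, hm0, hm⟩ := H953.exists_mult (expS D habel) hs (Ph.image (fm D)) hG
  refine ⟨fun b => m (fm D b), fun b hb => ?_, ?_⟩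
  · exact Nat.cast_pos.2 (hm0 _ (Finset.mem_image_of_mem _ hb))
  · refine form_inj' (D.θ_surjective hη) fun s => ?_
    obtain ⟨z, _, hz⟩ := (expS D habel).exists_mul_mem_C t s
    have h1 := hm _ hz
    rw [hdet, Real.log_one, Finset.sum_image (fun b _ b' _ h => fm_inj D hη h)] at h1
    rw [ContinuousLinearMap.zero_apply, ContinuousLinearMap.sum_apply, ← h1]
    refine Finset.sum_congr rfl fun b _ => ?_
    rw [ContinuousLinearMap.smul_apply, smul_eq_mul, fm_apply, D.hgt_mul', D.hgt_ex, zero_add]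

end conc

end Vale.Agent.P188.H953
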