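import Vale.Agent.P188.H269.Cartan4
import Mathlib.LinearAlgebra.Matrix.AbsoluteValue

/-!
P188, Z1, RM-b: weights of the Cartan group, generation of the ideal by the generating weights,
determinants.
-/

set_option linter.all false

universe u v w

namespace Vale.Agent.P188.H953

open Module
open scoped commutatorElement
open Vale.Agent.P188.H269

/-! ### generation -/

/-- a nilpotency argument: a subalgebra generating an ideal modulo its derived ideal -/
theorem le_of_sup_derived {V : Type v} [LieRing V] [LieAlgebra ℝ V]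
    (hnil : LieModule.IsNilpotent V V) (e : LieIdeal ℝ V) (P : LieSubalgebra ℝ V)
    (hPe : ∀ x ∈ P, x ∈ e)
    (h0 : e.toSubmodule ≤ P.toSubmodule ⊔ (⁅e, e⁆ : LieIdeal ℝ V).toSubmodule) :
    ∀ x ∈ e, x ∈ P := by
  intro x hx
  let C : ℕ → LieIdeal ℝ V := fun k => Nat.rec e (fun _ I => ⁅e, I⁆) k
  have hC0 : C 0 = e := rfl
  have hCs : ∀ k, C (k + 1) = ⁅e, C k⁆ := fun k => rfl
  have hClcs : ∀ k, C k ≤ LieModule.lowerCentralSeries ℝ V V k := by
    intro k
    induction k with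
    | zero => rw [LieModule.lowerCentralSeries_zero]; exact le_top
    | succ k ih =>
      rw [hCs, LieModule.lowerCentralSeries_succ]
      exact LieSubmodule.mono_lie le_top ih
  have hCe : ∀ k, C k ≤ e := by
    intro k
    cases k with
    | zero => exact le_rfl
    | succ k => rw [hCs]; exact LieSubmodule.lie_le_left _ _
  have key : ∀ k, e.toSubmodule ≤ P.toSubmodule ⊔ (C k).toSubmodule := by
    intro k
    induction k with
    | zero => rw [hC0]; exact le_sup_right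
    | succ k ih =>
      have h1 : (⁅e, e⁆ : LieIdeal ℝ V).toSubmodule ≤ P.toSubmodule ⊔ (C (k + 1)).toSubmodule := by
        rw [LieSubmodule.lieIdeal_oper_eq_linear_span', Submodule.span_le]
        rintro _ ⟨a, ha, b, hb, rfl⟩
        obtain ⟨p, hp, c, hc, rfl⟩ := Submodule.mem_sup.1 (ih ha)
        obtain ⟨p', hp', c', hc', rfl⟩ := Submodule.mem_sup.1 (ih hb)
        have e1 : ⁅p + c, p' + c'⁆ = ⁅p, p'⁆ + (⁅p, c'⁆ - ⁅p', c⁆ + ⁅c, c'⁆) := by
          rw [add_lie, lie_add, lie_add, ← lie_skew c p']; abel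
        rw [e1]
        refine Submodule.add_mem _ (Submodule.mem_sup_left (P.lie_mem hp hp'))
          (Submodule.mem_sup_right ?_)
        rw [hCs]
        exact add_mem (sub_mem (LieSubmodule.lie_mem_lie (hPe p hp) hc')
          (LieSubmodule.lie_mem_lie (hPe p' hp') hc))
          (LieSubmodule.lie_mem_lie (hCe k hc) hc')
      exact h0.trans (sup_le le_sup_left h1)
  obtain ⟨k, hk⟩ := hnil.nilpotent ℝ
  have h6 := key k hx
  have h7 : C k = ⊥ := by
    rw [eq_bot_iff, ← hk]; exact hClcs k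
  rw [h7] at h6
  simpa using h6

section gen

variable {G : Type u} [Group G]

/-- unipotent elements have trivial characters -/
theorem eig_eq_one {V : Type v} [AddCommGroup V] [Module ℝ V] {N : Subgroup G}
    {ρ : G →* Module.End ℝ V} (hU : UnipOn N ρ) {A : Submodule ℝ V} {l : V →ₗ[ℝ] ℂ} {χ : G → ℂ}
    (h : EigOn ρ A l χ) {g : G} (hg : g ∈ N) : χ g = 1 := by
  obtain ⟨F, d, hF0, hFd, hF⟩ := hU
  obtain ⟨x, hx, hx0⟩ := h.ne
  have key : ∀ j : ℕ, ((ρ g - 1) ^ j) x ∈ A ∧ ((ρ g - 1) ^ j) x ∈ F j ∧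
      l (((ρ g - 1) ^ j) x) = (χ g - 1) ^ j * l x := by
    intro j
    induction j with
    | zero => simp [hx, hF0]
    | succ j ih =>
      obtain ⟨h1, h2, h3⟩ := ih
      have e1 : ((ρ g - 1) ^ (j + 1)) x = ρ g (((ρ g - 1) ^ j) x) - ((ρ g - 1) ^ j) x := by
        rw [pow_succ', Module.End.mul_apply, LinearMap.sub_apply, Module.End.one_apply]
      rw [e1]
      refine ⟨A.sub_mem (h.inv g _ h1) h1, hF g hg j _ h2, ?_⟩
      rw [map_sub, h.eig g _ h1, h3]
      ring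
  obtain ⟨_, h2, h3⟩ := key d
  rw [hFd, Submodule.mem_bot] at h2
  rw [h2, map_zero] at h3
  rcases mul_eq_zero.1 h3.symm with h4 | h4
  · by_contra hcon
    exact pow_ne_zero d (sub_ne_zero.2 hcon) h4
  · exact absurd h4 hx0

theorem wts_eq_zero {V : Type v} [AddCommGroup V] [Module ℝ V] {N : Subgroup G}
    {ρ : G →* Module.End ℝ V} (hU : UnipOn N ρ) {D : Submodule ℝ V} {b : G → ℝ}
    (hb : b ∈ Wts ρ D) {g : G} (hg : g ∈ N) : b g = 0 := by
  obtain ⟨A, _, l, χ, h, hb⟩ := hb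
  rw [hb, eig_eq_one hU h hg, norm_one, Real.log_one]

theorem wts_mul {V : Type v} [AddCommGroup V] [Module ℝ V]
    {ρ : G →* Module.End ℝ V} {D : Submodule ℝ V} {b : G → ℝ}
    (hb : b ∈ Wts ρ D) (g k : G) : b (g * k) = b g + b k := by
  obtain ⟨A, _, l, χ, h, hb⟩ := hb
  rw [hb, hb, hb, h.log_mul]

variable {V : Type v} [LieRing V] [LieAlgebra ℝ V] [FiniteDimensional ℝ V]
variable {N : Subgroup G} [hNn : N.Normal] {ρ : G →* Module.End ℝ V}

/-- the generating weights: nonzero weights of eigenfunctionals which kill all brackets -/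
def GW (ρ : G →* Module.End ℝ V) : Set (G → ℝ) :=
  {b | b ≠ 0 ∧ ∃ (l : V →ₗ[ℝ] ℂ) (χ : G → ℂ), EigOn ρ ⊤ l χ ∧ (∀ x y : V, l ⁅x, y⁆ = 0) ∧
    ∀ g, b g = Real.log ‖χ g‖}

theorem GW_sub {b : G → ℝ} (hb : b ∈ GW ρ) : b ∈ Wts ρ ⊤ := by
  obtain ⟨_, l, χ, h, _, hb⟩ := hb
  exact ⟨⊤, le_rfl, l, χ, h, hb⟩

/-- the subalgebra generated by the weight spaces of the generating weights -/
def PG (ρ : G →* Module.End ℝ V) (t : G) : LieSubalgebra ℝ V :=
  LieSubalgebra.lieSpan ℝ V (⋃ b ∈ GW ρ, (W ρ t (b t) : Set V))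

theorem W_le_PG (t : G) {b : G → ℝ} (hb : b ∈ GW ρ) {x : V} (hx : x ∈ W ρ t (b t)) :
    x ∈ PG ρ t := by
  refine LieSubalgebra.subset_lieSpan ?_
  simp only [Set.mem_iUnion]
  exact ⟨b, hb, hx⟩

theorem PG_le {t : G} (hs : Sep ρ t) {x : V} (hx : x ∈ PG ρ t) : x ∈ eId ρ t := by
  let K : LieSubalgebra ℝ V :=
    { (eId ρ t).toSubmodule with lie_mem' := fun {x y} _ hy => (eId ρ t).lie_mem hy }
  have h1 : PG ρ t ≤ K := by
    unfold PG
    rw [LieSubalgebra.lieSpan_le]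
    intro x hx
    simp only [Set.mem_iUnion] at hx
    obtain ⟨b, hb, hx⟩ := hx
    exact Wt_le_eI (fun h0 => hb.1 (hs.1 b (GW_sub hb) h0)) hx
  exact h1 hx

/-- **the ideal is generated by the weight spaces of the generating weights** -/
theorem mem_PG_iff (H : LRep N ρ) {t : G} (hs : Sep ρ t) (x : V) :
    x ∈ PG ρ t ↔ x ∈ eId ρ t := by
  refine ⟨PG_le hs, fun hx => ?_⟩
  refine le_of_sup_derived H.nil (eId ρ t) (PG ρ t) (fun x hx => PG_le hs hx) ?_ x hx
  have h := rho_inv_mul ρ t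
  have h' := rho_mul_inv ρ t
  refine (eI_le h h' (H.lie t) (H.lie t⁻¹)).trans (sup_le ?_ le_sup_right)
  refine iSup_le ?_
  rintro ⟨r, hr⟩
  by_cases hle : Wt (ρ t) (ρ t⁻¹) r ≤ (⁅(⊤ : LieIdeal ℝ V), (⊤ : LieIdeal ℝ V)⁆ :
      LieIdeal ℝ V).toSubmodule
  · exact (Wt_le_derived h h' (H.lie t) (H.lie t⁻¹) H.nil hr hle).trans le_sup_right
  · obtain ⟨l, χ, hl, hbr, hlog⟩ := H.exists_char t hle
    refine le_trans ?_ le_sup_left
    intro x hx
    refine W_le_PG t (b := fun g => Real.log ‖χ g‖) ⟨?_, l, χ, hl, hbr, fun g => rfl⟩ ?_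
    · intro h0
      exact hr (hlog ▸ congrFun h0 t)
    · change x ∈ W ρ t (Real.log ‖χ t‖)
      rw [hlog]
      exact hx

end gen

section cartan

variable {S : Type u} [Group S]
variable {V : Type v} [LieRing V] [LieAlgebra ℝ V] [FiniteDimensional ℝ V]
variable {ρ : S →* Module.End ℝ V} {E : V → S}

/-- brackets of weight spaces -/
theorem lie_wt (H : ExpS ρ E) {t : S} (hs : Sep ρ t) {b b' : S → ℝ} (hb : b ∈ Wts ρ ⊤)
    (hb' : b' ∈ Wts ρ ⊤) {x y : V} (hx : x ∈ W ρ t (b t)) (hy : y ∈ W ρ t (b' t))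
    (hne : ⁅x, y⁆ ≠ 0) : b + b' ∈ Wts ρ ⊤ := by
  have := H.normal
  have h1 := H.lie_W t hx hy
  obtain ⟨b'', hb'', ht⟩ := H.exists_weight t (r := b t + b' t) (by
    intro h0
    rw [h0, Submodule.mem_bot] at h1
    exact hne h1)
  rw [← ht] at h1
  have hU := H.lrep.unipOn
  have hC : ∀ c ∈ H.C t, b'' c = b c + b' c := by
    intro c hc
    by_contra hcon
    have h2 : ⁅x, y⁆ ∈ W ρ c (b c + b' c) := H.lie_W c (H.W_le hs hb hc hx) (H.W_le hs hb' hc hy)
    have h3 : ⁅x, y⁆ ∈ W ρ c (b'' c) := H.W_le hs hb'' hc h1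
    exact hne (Wt_disjoint (rho_inv_mul ρ c) hcon h3 h2)
  have h2 : b'' = b + b' := by
    funext s
    obtain ⟨z, _, hz⟩ := H.exists_mul_mem_C t s
    have h3 := hC _ hz
    have hzN : E z ∈ H.N := ⟨z, rfl⟩
    rw [wts_mul hb'', wts_mul hb, wts_mul hb', wts_eq_zero hU hb'' hzN, wts_eq_zero hU hb hzN,
      wts_eq_zero hU hb' hzN, zero_add, zero_add, zero_add] at h3
    exact h3
  rw [← h2]
  exact hb''

/-- the weight spaces of a submonoid of weights span a subalgebra -/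
def subM (H : ExpS ρ E) {t : S} (hs : Sep ρ t) (M : AddSubmonoid (S → ℝ)) : LieSubalgebra ℝ V :=
  { (⨆ b : {b : S → ℝ // b ∈ Wts ρ ⊤ ∧ b ∈ M}, W ρ t (b.1 t) : Submodule ℝ V) with
    lie_mem' := by
      intro x y hx hy
      change x ∈ (⨆ b : {b : S → ℝ // b ∈ Wts ρ ⊤ ∧ b ∈ M}, W ρ t (b.1 t) : Submodule ℝ V) at hx
      change y ∈ (⨆ b : {b : S → ℝ // b ∈ Wts ρ ⊤ ∧ b ∈ M}, W ρ t (b.1 t) : Submodule ℝ V) at hy
      change ⁅x, y⁆ ∈ (⨆ b : {b : S → ℝ // b ∈ Wts ρ ⊤ ∧ b ∈ M}, W ρ t (b.1 t) : Submodule ℝ V)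
      induction hx using Submodule.iSup_induction' with
      | zero => rw [zero_lie]; exact zero_mem _
      | add a a' _ _ ha ha' => rw [add_lie]; exact add_mem ha ha'
      | mem b a ha =>
        induction hy using Submodule.iSup_induction' with
        | zero => rw [lie_zero]; exact zero_mem _
        | add c c' _ _ hc hc' => rw [lie_add]; exact add_mem hc hc'
        | mem b' c hc =>
          by_cases h0 : ⁅a, c⁆ = 0
          · rw [h0]; exact zero_mem _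
          · exact Submodule.mem_iSup_of_mem
              ⟨b.1 + b'.1, lie_wt H hs b.2.1 b'.2.1 ha hc h0, M.add_mem b.2.2 b'.2.2⟩
              (H.lie_W t ha hc) }

theorem mem_subM (H : ExpS ρ E) {t : S} (hs : Sep ρ t) (M : AddSubmonoid (S → ℝ)) {x : V} :
    x ∈ subM H hs M ↔
      x ∈ (⨆ b : {b : S → ℝ // b ∈ Wts ρ ⊤ ∧ b ∈ M}, W ρ t (b.1 t) : Submodule ℝ V) := Iff.rfl

/-- nonzero weights have nonzero weight spaces -/
theorem exists_ne (H : ExpS ρ E) (t : S) {b : S → ℝ} (hb : b ∈ Wts ρ ⊤) :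
    ∃ x ∈ W ρ t (b t), x ≠ 0 := by
  obtain ⟨A, _, l, χ, h, hb⟩ := hb
  obtain ⟨x, hx, hx0⟩ := h.ne
  obtain ⟨y, _, hy, hly⟩ := h.exists_comp t hx hx0
  refine ⟨y, by rw [hb]; exact hy, fun h0 => ?_⟩
  rw [h0, map_zero] at hly
  exact hx0 hly.symm

open Classical in
/-- **every nonzero weight is a sum of generating weights** -/
theorem mem_closure_GW (H : ExpS ρ E) {t : S} (hs : Sep ρ t) {b : S → ℝ} (hb : b ∈ Wts ρ ⊤)
    (hb0 : b ≠ 0) : b ∈ AddSubmonoid.closure (GW ρ) := by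
  have := H.normal
  obtain ⟨x, hx, hx0⟩ := exists_ne H t hb
  have h1 : x ∈ eId ρ t := Wt_le_eI (fun h0 => hb0 (hs.1 b hb h0)) hx
  rw [← mem_PG_iff H.lrep hs] at h1
  have h2 : PG ρ t ≤ subM H hs (AddSubmonoid.closure (GW ρ)) := by
    unfold PG
    rw [LieSubalgebra.lieSpan_le]
    intro y hy
    simp only [Set.mem_iUnion] at hy
    obtain ⟨b', hb', hy⟩ := hy
    exact Submodule.mem_iSup_of_mem ⟨b', GW_sub hb', AddSubmonoid.subset_closure hb'⟩ hy
  have h3 := (mem_subM H hs _).1 (h2 h1)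
  let p : ℝ → Submodule ℝ V := fun r =>
    if ∃ b' ∈ Wts ρ ⊤, b' ∈ AddSubmonoid.closure (GW ρ) ∧ b' t = r then W ρ t r else ⊥
  have h4 : x ∈ ⨆ r, p r := by
    refine (iSup_le ?_ : (⨆ b : {b : S → ℝ // b ∈ Wts ρ ⊤ ∧ b ∈ AddSubmonoid.closure (GW ρ)},
      W ρ t (b.1 t)) ≤ ⨆ r, p r) h3
    rintro ⟨b', hb'1, hb'2⟩
    refine le_trans (le_of_eq ?_) (le_iSup p (b' t))
    simp only [p]
    rw [if_pos ⟨b', hb'1, hb'2, rfl⟩]
  have h5 : x ∈ p (b t) := Wt_inf_iSup (rho_inv_mul ρ t) p (fun s => by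
    simp only [p]
    split_ifs
    · exact le_rfl
    · exact bot_le) hx h4
  simp only [p] at h5
  split_ifs at h5 with hcond
  · obtain ⟨b', hb'1, hb'2, hb't⟩ := hcond
    rw [← hs.2 b' hb'1 b hb hb't]
    exact hb'2
  · exact absurd ((Submodule.mem_bot ℝ).1 h5) hx0

end cartan

end Vale.Agent.P188.H953
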