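import Vale.Agent.P188.H953.WtA

/-!
P188, Z1, RM-b: determinants of the elements of the Cartan group.
-/

set_option linter.all false

universe u v w

namespace Vale.Agent.P188.H953

open Module
open scoped commutatorElement
open Vale.Agent.P188.H269

/-! ### linear algebra -/

theorem det_blockDiagonal' {ι : Type*} [Fintype ι] [LinearOrder ι] {κ : ι → Type*}
    [∀ i, Fintype (κ i)] [∀ i, DecidableEq (κ i)] (M : ∀ i, Matrix (κ i) (κ i) ℝ) :
    (Matrix.blockDiagonal' M).det = ∏ i, (M i).det := by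
  have h : Matrix.BlockTriangular (Matrix.blockDiagonal' M) (Sigma.fst : (Σ i, κ i) → ι) := by
    rintro ⟨i, a⟩ ⟨j, b⟩ hij
    rw [Matrix.blockDiagonal'_apply_ne]
    exact ne_of_gt hij
  rw [h.det_fintype]
  refine Finset.prod_congr rfl fun k _ => ?_
  rw [← Matrix.det_submatrix_equiv_self (Equiv.sigmaSubtype k).symm]
  congr 1
  ext a b
  simp [Matrix.toSquareBlock_def, Equiv.sigmaSubtype]

theorem det_eq_prod {V : Type*} [AddCommGroup V] [Module ℝ V] [FiniteDimensional ℝ V]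
    {ι : Type*} [Fintype ι] [LinearOrder ι] {A : ι → Submodule ℝ V}
    (h : DirectSum.IsInternal A) {T : Module.End ℝ V} (hT : ∀ i, ∀ x ∈ A i, T x ∈ A i) :
    LinearMap.det T = ∏ i, LinearMap.det (T.restrict (hT i)) := by
  classical
  let b : (i : ι) → Basis _ ℝ (A i) := fun i ↦ Module.Free.chooseBasis ℝ (A i)
  rw [← LinearMap.det_toMatrix (h.collectedBasis b),
    LinearMap.toMatrix_directSum_collectedBasis_eq_blockDiagonal' h h b b hT,
    det_blockDiagonal']
  refine Finset.prod_congr rfl fun i _ => ?_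
  rw [LinearMap.det_toMatrix]

/-- growth of the determinant -/
theorem log_det_le {V : Type*} [AddCommGroup V] [Module ℝ V] [FiniteDimensional ℝ V]
    {T : Module.End ℝ V} {r : ℝ} (h : ∀ x, x ∈ Gr T r) (hT : LinearMap.det T ≠ 0) :
    Real.log |LinearMap.det T| ≤ r * finrank ℝ V := by
  refine le_of_exp_bound (a := 1) one_pos fun ε hε => ?_
  let b := finBasis ℝ V
  have hε' : 0 < ε / (finrank ℝ V + 1) := by positivity
  choose C hC0 hC using fun j => Gr.bound_fin (h (b j)) (fun i => b.coord i) hε'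
  refine ⟨(finrank ℝ V).factorial * (∑ j, C j) ^ finrank ℝ V, fun n => ?_⟩
  have h1 : ∀ i j, |(LinearMap.toMatrix b b (T ^ n)) i j| ≤
      (∑ j, C j) * Real.exp ((r + ε / (finrank ℝ V + 1)) * n) := by
    intro i j
    rw [LinearMap.toMatrix_apply]
    refine (hC j i n).trans ?_
    refine mul_le_mul_of_nonneg_right ?_ (Real.exp_pos _).le
    exact Finset.single_le_sum (f := C) (fun j _ => hC0 j) (Finset.mem_univ j)
  have h2 := Matrix.det_le (abv := AbsoluteValue.abs) (A := LinearMap.toMatrix b b (T ^ n)) h1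
  rw [LinearMap.det_toMatrix, Fintype.card_fin, nsmul_eq_mul, map_pow, AbsoluteValue.abs_apply,
    abs_pow, mul_pow, ← Real.exp_nat_mul] at h2
  have h3 : Real.exp (Real.log |LinearMap.det T| * n) = |LinearMap.det T| ^ n := by
    rw [mul_comm, Real.exp_nat_mul, Real.exp_log (abs_pos.2 hT)]
  rw [one_mul, h3]
  refine h2.trans ?_
  rw [← mul_assoc]
  refine mul_le_mul_of_nonneg_left (Real.exp_le_exp.2 ?_)
    (mul_nonneg (Nat.cast_nonneg _) (pow_nonneg (Finset.sum_nonneg fun j _ => hC0 j) _))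
  have h4 : (finrank ℝ V : ℝ) * (ε / (finrank ℝ V + 1)) ≤ ε := by
    rw [mul_div_assoc', div_le_iff₀ (by positivity)]
    nlinarith
  have h5 : (0 : ℝ) ≤ n := Nat.cast_nonneg n
  nlinarith

theorem iSupIndep_Wt {V : Type*} [AddCommGroup V] [Module ℝ V] [FiniteDimensional ℝ V]
    {T T' : Module.End ℝ V} (h : T' * T = 1) : iSupIndep (Wt T T') := by
  classical
  intro r
  rw [Submodule.disjoint_def]
  intro x hx hx'
  let p : ℝ → Submodule ℝ V := fun s => if s = r then ⊥ else Wt T T' s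
  have h1 : x ∈ ⨆ s, p s := by
    refine (iSup₂_le ?_ : (⨆ (j : ℝ) (_ : j ≠ r), Wt T T' j) ≤ ⨆ s, p s) hx'
    intro j hj
    refine le_trans (le_of_eq ?_) (le_iSup p j)
    simp only [p, if_neg hj]
  have h2 := Wt_inf_iSup h p (fun s => by
    simp only [p]
    split_ifs
    · exact bot_le
    · exact le_rfl) hx h1
  simp only [p, if_pos] at h2
  exact (Submodule.mem_bot ℝ).1 h2

section cartan

variable {S : Type u} [Group S]
variable {V : Type v} [LieRing V] [LieAlgebra ℝ V] [FiniteDimensional ℝ V]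
variable {ρ : S →* Module.End ℝ V} {E : V → S}

theorem det_ne_zero (ρ : S →* Module.End ℝ V) (c : S) : LinearMap.det (ρ c) ≠ 0 := by
  intro h
  have h1 := congrArg LinearMap.det (rho_inv_mul ρ c)
  rw [map_mul, h, mul_zero, map_one] at h1
  exact zero_ne_one h1

theorem iSup_W (ρ : S →* Module.End ℝ V) (t : S) : ⨆ r, W ρ t r = ⊤ :=
  iSup_Wt_eq_top (rho_inv_mul ρ t) (rho_mul_inv ρ t)

theorem indep_W (ρ : S →* Module.End ℝ V) (t : S) : iSupIndep (W ρ t) :=
  iSupIndep_Wt (rho_inv_mul ρ t)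

theorem finite_W (ρ : S →* Module.End ℝ V) (t : S) : {r | W ρ t r ≠ ⊥}.Finite :=
  WellFoundedGT.finite_ne_bot_of_iSupIndep (indep_W ρ t)

theorem internal_W (ρ : S →* Module.End ℝ V) (t : S) :
    DirectSum.IsInternal fun r : {r : ℝ // W ρ t r ≠ ⊥} => W ρ t r.1 := by
  refine DirectSum.isInternal_ne_bot_iff.mpr ?_
  exact DirectSum.isInternal_submodule_of_iSupIndep_of_iSup_eq_top (indep_W ρ t) (iSup_W ρ t)

/-- the determinant of an element of the Cartan group on a weight space -/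
theorem log_det_W (H : ExpS ρ E) {t : S} (hs : Sep ρ t) {b : S → ℝ} (hb : b ∈ Wts ρ ⊤) {c : S}
    (hc : c ∈ H.C t) :
    LinearMap.det ((ρ c).restrict (H.C_inv hc (b t))) ≠ 0 ∧
    Real.log |LinearMap.det ((ρ c).restrict (H.C_inv hc (b t)))| =
      b c * finrank ℝ (W ρ t (b t)) := by
  have hc' : c⁻¹ ∈ H.C t := (H.C t).inv_mem hc
  set T := (ρ c).restrict (H.C_inv hc (b t)) with hT
  set T' := (ρ c⁻¹).restrict (H.C_inv hc' (b t)) with hT'
  have h1 : T' * T = 1 := by
    ext x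
    change ((ρ c⁻¹) ((ρ c) (x : V)) : V) = x
    have := congrArg (fun f : Module.End ℝ V => f (x : V)) (rho_inv_mul ρ c)
    exact this
  have h2 : LinearMap.det T' * LinearMap.det T = 1 := by
    rw [← map_mul, h1, map_one]
  have hT0 : LinearMap.det T ≠ 0 := fun h => by
    rw [h, mul_zero] at h2; exact zero_ne_one h2
  have hT'0 : LinearMap.det T' ≠ 0 := fun h => by
    rw [h, zero_mul] at h2; exact zero_ne_one h2
  refine ⟨hT0, ?_⟩
  have h3 : Real.log |LinearMap.det T| ≤ b c * finrank ℝ (W ρ t (b t)) := by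
    refine log_det_le (fun x => ?_) hT0
    exact Gr_restrict _ (H.C_inv hc (b t)) x.2 (H.W_le hs hb hc x.2).1
  have h4 : Real.log |LinearMap.det T'| ≤ b c⁻¹ * finrank ℝ (W ρ t (b t)) := by
    refine log_det_le (fun x => ?_) hT'0
    exact Gr_restrict _ (H.C_inv hc' (b t)) x.2 (H.W_le hs hb hc' x.2).1
  have h5 : Real.log |LinearMap.det T'| + Real.log |LinearMap.det T| = 0 := by
    rw [← Real.log_mul (abs_pos.2 hT'0).ne' (abs_pos.2 hT0).ne', ← abs_mul, h2, abs_one,
      Real.log_one]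
  have h6 : b c⁻¹ = - b c := by
    have h7 := wts_mul hb c⁻¹ c
    have h8 := wts_mul hb 1 1
    rw [inv_mul_cancel] at h7
    rw [mul_one] at h8
    linarith
  rw [h6] at h4
  linarith

theorem log_det_W' (H : ExpS ρ E) {t : S} (hs : Sep ρ t) {b : S → ℝ} (hb : b ∈ Wts ρ ⊤) {c : S}
    (hc : c ∈ H.C t) {r : ℝ} (hr : b t = r) :
    LinearMap.det ((ρ c).restrict (H.C_inv hc r)) ≠ 0 ∧
    Real.log |LinearMap.det ((ρ c).restrict (H.C_inv hc r))| =
      b c * finrank ℝ (W ρ t r) := by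
  subst hr
  exact log_det_W H hs hb hc

theorem log_det_sum (H : ExpS ρ E) {t : S} (hs : Sep ρ t) [Fintype {r : ℝ // W ρ t r ≠ ⊥}]
    (β : {r : ℝ // W ρ t r ≠ ⊥} → S → ℝ) (hβ : ∀ i, β i ∈ Wts ρ ⊤) (hβt : ∀ i, β i t = i.1)
    {c : S} (hc : c ∈ H.C t) : Real.log |LinearMap.det (ρ c)| =
        ∑ i : {r : ℝ // W ρ t r ≠ ⊥}, β i c * finrank ℝ (W ρ t i.1) := by
  have h1 := det_eq_prod (internal_W ρ t) (T := ρ c) (fun i => H.C_inv hc i.1)
  rw [h1, Finset.abs_prod, Real.log_prod (fun i _ =>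
    (abs_pos.2 (log_det_W' H hs (hβ i) hc (hβt i)).1).ne')]
  exact Finset.sum_congr rfl fun i _ => (log_det_W' H hs (hβ i) hc (hβt i)).2

open Classical in
/-- **unimodularity relation of the generating weights** -/
theorem exists_mult (H : ExpS ρ E) {t : S} (hs : Sep ρ t) (G₀ : Finset (S → ℝ))
    (hG : (G₀ : Set (S → ℝ)) = GW ρ) :
    ∃ m : (S → ℝ) → ℕ, (∀ b ∈ G₀, 0 < m b) ∧
      ∀ c ∈ H.C t, ∑ b ∈ G₀, (m b : ℝ) * b c = Real.log |LinearMap.det (ρ c)| := by
  haveI := H.normal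
  haveI : Fintype {r : ℝ // W ρ t r ≠ ⊥} := (finite_W ρ t).fintype
  choose β hβ hβt using fun i : {r : ℝ // W ρ t r ≠ ⊥} => H.exists_weight t i.2
  have hn : ∀ i, ∃ f : (S → ℝ) → ℕ, (∑ b ∈ G₀, f b • b = β i) ∧ (β i ∈ G₀ → 0 < f (β i)) := by
    intro i
    by_cases h1 : β i ∈ G₀
    · refine ⟨fun b => if b = β i then 1 else 0, ?_, fun _ => by simp⟩
      rw [Finset.sum_eq_single_of_mem (β i) h1]
      · simp
      · intro b _ hb
        simp [hb]
    · by_cases h0 : β i = 0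
      · refine ⟨fun _ => 0, ?_, fun h => absurd h h1⟩
        rw [h0]; simp
      · have h2 := mem_closure_GW H hs (hβ i) h0
        rw [← hG, AddSubmonoid.mem_closure_finset] at h2
        obtain ⟨f, _, hf⟩ := h2
        exact ⟨f, hf, fun h => absurd h h1⟩
  choose f hf hf0 using hn
  refine ⟨fun b => ∑ i : {r : ℝ // W ρ t r ≠ ⊥}, finrank ℝ (W ρ t i.1) * f i b, ?_, ?_⟩
  · intro b hb
    have hbG : b ∈ GW ρ := by rw [← hG]; exact hb
    have h1 : W ρ t (b t) ≠ ⊥ := by
      obtain ⟨x, hx, hx0⟩ := exists_ne H t (GW_sub hbG)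
      intro h0
      rw [h0, Submodule.mem_bot] at hx
      exact hx0 hx
    obtain ⟨i, hi⟩ : ∃ i : {r : ℝ // W ρ t r ≠ ⊥}, i.1 = b t := ⟨⟨b t, h1⟩, rfl⟩
    have h2 : β i = b := hs.2 _ (hβ _) _ (GW_sub hbG) ((hβt i).trans hi)
    have h3 : 0 < f i b := by
      have := hf0 i (by rw [h2]; exact hb)
      rwa [h2] at this
    have h4 : 0 < finrank ℝ (W ρ t i.1) := by
      have : Nontrivial (W ρ t i.1) := Submodule.nontrivial_iff_ne_bot.2 i.2
      exact finrank_pos
    exact Finset.sum_pos' (fun i _ => Nat.zero_le _) ⟨i, Finset.mem_univ i, Nat.mul_pos h4 h3⟩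
  · intro c hc
    rw [log_det_sum H hs β hβ hβt hc]
    push_cast
    have h4 : ∀ i : {r : ℝ // W ρ t r ≠ ⊥}, β i c = ∑ b ∈ G₀, (f i b : ℝ) * b c := by
      intro i
      conv_lhs => rw [← hf i]
      rw [Finset.sum_apply]
      refine Finset.sum_congr rfl fun b _ => ?_
      rw [Pi.smul_apply, nsmul_eq_mul]
    simp_rw [h4, Finset.sum_mul]
    rw [Finset.sum_comm]
    refine Finset.sum_congr rfl fun i _ => Finset.sum_congr rfl fun b _ => ?_
    ring

end cartan

end Vale.Agent.P188.H953
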